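import Mathlib

/-! # P058: a cyclic quadrilateral that is Ramsey and not subtransitive: definitions -/

namespace Vale.Agent.Lib.P058.Quad

noncomputable section

/-- The number `1 + √2`. -/
def w : ℝ := 1 + Real.sqrt 2

/-- The unit columns: values of four affine functions at the four points. -/
def cI : Fin 4 → ℝ := ![Real.sqrt 2, w, 0, 0]
/-- The second column. -/
def cII : Fin 4 → ℝ := ![w, w, -1, 0]
/-- The third column. -/
def cIII : Fin 4 → ℝ := ![1, 0, -1, 0]
/-- The fourth column. -/
def cIV : Fin 4 → ℝ := ![1, 2 + Real.sqrt 2, 1, 0]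

/-- A reading of the column `y` by a list of columns and constants in the free group on the reals,
whose squared differences add up to `p (ΔcI)² + q (ΔcII)²`. -/
def Reads (y : Fin 4 → ℝ) (p q : ℝ) : Prop :=
  ∃ L : List (FreeGroup ℝ × (Fin 4 → ℝ)),
    (∀ s, (L.map fun a => a.1 * FreeGroup.of (a.2 s)).prod = FreeGroup.of (y s)) ∧
    ∀ s s', (L.map fun a => (a.2 s - a.2 s') ^ 2).sum =
      p * (cI s - cI s') ^ 2 + q * (cII s - cII s') ^ 2

/-- The four points of the quadrilateral in the plane. -/
def pt (s : Fin 4) : EuclideanSpace ℝ (Fin 2) :=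
  WithLp.toLp 2 ![Real.sqrt w * cI s, cII s]

/-- The quadrilateral. -/
def quad : Set (EuclideanSpace ℝ (Fin 2)) := Set.range pt

end

end Vale.Agent.Lib.P058.Quad
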