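import Vale.Agent.Lib.P058.Quad.Core
import Vale.Agent.Lib.P058.Quad.Defs

/-! # P058: the quadrilateral is Ramsey, given the family of readings -/

namespace Vale.Agent.Lib.P058.Quad

noncomputable section

open Vale.Agent.Lib.P058

theorem w_pos : 0 < w := by
  unfold w
  have := Real.sqrt_nonneg 2
  linarith

theorem dist_pt_sq (s s' : Fin 4) :
    dist (pt s) (pt s') ^ 2 = w * (cI s - cI s') ^ 2 + (cII s - cII s') ^ 2 := by
  rw [EuclideanSpace.dist_eq, Real.sq_sqrt (Finset.sum_nonneg fun _ _ => by positivity)]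
  simp only [Fin.sum_univ_two, pt, Real.dist_eq, sq_abs]
  simp only [Matrix.cons_val_zero, Matrix.cons_val_one, PiLp.toLp_apply]
  have h : Real.sqrt w ^ 2 = w := Real.sq_sqrt w_pos.le
  have h2 : (Real.sqrt w * cI s - Real.sqrt w * cI s') ^ 2
      = Real.sqrt w ^ 2 * (cI s - cI s') ^ 2 := by ring
  rw [h2, h]

/-- The embedding of the reals. -/
def eR (a : ℝ) : EuclideanSpace ℝ (Fin 2) := WithLp.toLp 2 ![a, 0]

theorem dist_eR_sq (a b : ℝ) : dist (eR a) (eR b) ^ 2 = (a - b) ^ 2 := by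
  rw [EuclideanSpace.dist_eq, Real.sq_sqrt (Finset.sum_nonneg fun _ _ => by positivity)]
  simp [Fin.sum_univ_two, eR, Real.dist_eq, sq_abs]

/-- The family gives the Ramsey property. -/
theorem quad_isRamsey_of (hfam : ∀ M : ℕ, ∃ y : Fin 4 → ℝ, ∀ t : ℕ, 1 ≤ t → t ≤ M →
    ∃ L : List (FreeGroup ℝ × (Fin 4 → ℝ)),
      (∀ s, (L.map fun a => a.1 * FreeGroup.of (a.2 s)).prod = FreeGroup.of (y s)) ∧
      ∀ s s', (t : ℝ) * (L.map fun a => (a.2 s - a.2 s') ^ 2).sum =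
        w * (cI s - cI s') ^ 2 + (cII s - cII s') ^ 2) : IsRamsey quad := by
  refine isRamsey_of_family pt quad (fun y hy => hy) eR dist_eR_sq ?_
  intro M
  obtain ⟨y, hy⟩ := hfam M
  refine ⟨y, fun t h1 h2 => ?_⟩
  obtain ⟨L, hL1, hL2⟩ := hy t h1 h2
  exact ⟨L, hL1, fun s s' => by rw [hL2, dist_pt_sq]⟩

end

end Vale.Agent.Lib.P058.Quad
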