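import Vale.Agent.Lib.P058.FG

/-! # P058: Hales-Jewett in the group of an idempotent ultrafilter

A column `y` is read by a list of columns and constants, in the free group on the letters. If for
every number `t` of active coordinates of a line such a reading has squared differences `D / t`,
then every colouring of the words has a monochromatic table with squared distances `D`. -/

namespace Vale.Agent.Lib.P058.Quad

open Filter Vale.Agent.Lib.P058 Vale.Agent.Lib.P058.FG

attribute [local instance] Ultrafilter.semigroup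

section core

variable {U : Type} [Fintype U] [Nonempty U] {Λ : Type}

theorem prod_flatMap_aux {ι : Type} (o : List ι) (f : ι → List (FreeGroup Λ × (U → Λ))) (s : U)
    (E : ι → FreeGroup Λ) (hf : ∀ i, ((f i).map fun a => a.1 * FreeGroup.of (a.2 s)).prod = E i) :
    ((o.flatMap f).map fun a => a.1 * FreeGroup.of (a.2 s)).prod = (o.map E).prod := by
  induction o with
  | nil => simp
  | cons i o ih =>
    simp only [List.flatMap_cons, List.map_append, List.prod_append, List.map_cons, List.prod_cons,
      hf i, ih]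

theorem sum_flatMap_aux {ι : Type} (o : List ι) (p : ι → Prop) [DecidablePred p]
    (f : ι → List (FreeGroup Λ × (U → Λ))) (L : List (FreeGroup Λ × (U → Λ)))
    (G : (U → Λ) → ℝ) (h1 : ∀ i, p i → f i = L)
    (h0 : ∀ i, ¬ p i → ((f i).map fun a => G a.2).sum = 0) :
    ((o.flatMap f).map fun a => G a.2).sum = (o.countP (fun i => decide (p i)) : ℝ) *
      (L.map fun a => G a.2).sum := by
  induction o with
  | nil => simp
  | cons i o ih =>
    simp only [List.flatMap_cons, List.map_append, List.sum_append, ih]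
    by_cases hp : p i
    · simp only [h1 i hp, List.countP_cons_of_pos (p := fun i => decide (p i)) (by simpa using hp)]
      push_cast
      ring
    · simp only [h0 i hp, List.countP_cons_of_neg (p := fun i => decide (p i)) (by simpa using hp)]
      ring

/-- **The core.** -/
theorem lineCopy (d : Λ → Λ → ℝ) (hd : ∀ a, d a a = 0) (D : U → U → ℝ)
    (h : ∀ M : ℕ, ∃ y : U → Λ, ∀ t : ℕ, 1 ≤ t → t ≤ M →
      ∃ L : List (FreeGroup Λ × (U → Λ)),
        (∀ s, (L.map fun a => a.1 * FreeGroup.of (a.2 s)).prod = FreeGroup.of (y s)) ∧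
        ∀ s s', (t : ℝ) * (L.map fun a => d (a.2 s) (a.2 s')).sum = D s s') :
    ∀ r : ℕ, ∃ N : ℕ, ∀ χ : (Fin N → Λ) → Fin r, ∃ w : U → Fin N → Λ,
      (∀ s s', ∑ p, d (w s p) (w s' p) = D s s') ∧ ∀ s s', χ (w s) = χ (w s') := by
  classical
  by_contra hcon
  push Not at hcon
  obtain ⟨r, hr⟩ := hcon
  choose χ hχ using hr
  -- the glued colouring
  let col : FreeMonoid Λ → Fin r := fun w =>
    χ (FreeMonoid.toList w).length (fun p => (FreeMonoid.toList w).get p)
  have hcol : ∀ (T : List ((U → Λ) ⊕ Λ)) (e : (U → Λ) ⊕ Λ → Λ),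
      col (FreeMonoid.ofList (T.map e)) = χ T.length (fun p => e (T.get p)) := by
    intro T e
    have hs : (⟨(T.map e).length, fun p => (T.map e).get p⟩ : Σ n, (Fin n → Λ))
        = ⟨T.length, fun p => e (T.get p)⟩ := by
      refine Sigma.ext (by simp) ?_
      refine (Fin.heq_fun_iff (by simp)).2 fun i => ?_
      simp
    exact congrArg (fun x : (Σ n, (Fin n → Λ)) => χ x.1 x.2) hs
  -- the group
  have : Nonempty (BW Λ) := ⟨pw 1⟩
  obtain ⟨t, htt, hz⟩ := exists_group_idempotent (S := BW Λ) bw_cont
  have hz' : ∀ a : TG t, ∃ z : BW Λ, z * a.val = t := by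
    intro a
    obtain ⟨s, hs⟩ := a.mem
    rw [hs]
    exact hz s
  let grp : Group (TG t) := tgGroup htt hz'
  let g : Λ → TG t := fun x => ⟨t * pw (FreeMonoid.of x) * t, _, rfl⟩
  let φ : FreeGroup Λ →* TG t := FreeGroup.lift g
  let q : FreeGroup Λ → BW Λ := fun v => (φ v).val
  have key : ∀ l : List (FreeGroup Λ × Λ),
      (φ (l.map fun a => a.1 * FreeGroup.of a.2).prod).val
        = prodP t (l.map fun a => (q a.1, a.2)) := by
    intro l
    induction l with
    | nil => simp only [List.map_nil, List.prod_nil, map_one]; rfl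
    | cons a l ih =>
      simp only [List.map_cons, List.prod_cons, map_mul, prodP]
      rw [← ih]
      have h1 : (φ (FreeGroup.of a.2)) = g a.2 := by simp [φ]
      rw [h1]
      change (φ a.1).val * (t * pw (FreeMonoid.of a.2) * t) *
        (φ (l.map fun a => a.1 * FreeGroup.of a.2).prod).val = _
      have h2 : (φ a.1).val * t = (φ a.1).val := right_t htt (φ a.1).mem
      have h3 := left_t htt (φ (l.map fun a => a.1 * FreeGroup.of a.2).prod).mem
      calc (φ a.1).val * (t * pw (FreeMonoid.of a.2) * t) *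
            (φ (l.map fun a => a.1 * FreeGroup.of a.2).prod).val
          = ((φ a.1).val * t) * (pw (FreeMonoid.of a.2) *
            (t * (φ (l.map fun a => a.1 * FreeGroup.of a.2).prod).val)) := by
            simp only [mul_assoc]
        _ = _ := by rw [h2, h3]
  -- the colour of an element of the free group
  have hclr : ∀ a : FreeGroup Λ, ∃ i : Fin r, col ⁻¹' {i} ∈ (φ a).val := by
    intro a
    obtain ⟨i, hi⟩ := Ultrafilter.eq_pure_of_finite (Ultrafilter.map col (φ a).val)
    refine ⟨i, ?_⟩
    have : ({i} : Set (Fin r)) ∈ Ultrafilter.map col (φ a).val := by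
      rw [hi]
      exact Ultrafilter.mem_pure.2 rfl
    exact Ultrafilter.mem_map.1 this
  choose clr hclr' using hclr
  -- Hales-Jewett
  obtain ⟨ι, hι, hHJ⟩ := Combinatorics.Line.exists_mono_in_high_dimension U (Fin r)
  obtain ⟨y, hy⟩ := h (Fintype.card ι)
  let o : List ι := Finset.univ.toList
  let EE : (ι → U) → FreeGroup Λ := fun v => (o.map fun i => FreeGroup.of (y (v i))).prod
  obtain ⟨l, c, hl⟩ := hHJ (fun v => clr (EE v))
  obtain ⟨i₀, hi₀⟩ := l.proper
  let tt : ℕ := o.countP (fun i => decide (l.idxFun i = none))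
  have htt1 : 1 ≤ tt := by
    have : 0 < tt := List.countP_pos_iff.2 ⟨i₀, by simp [o], by simpa using hi₀⟩
    exact this
  have htt2 : tt ≤ Fintype.card ι := by
    have h1 : tt ≤ o.length := List.countP_le_length
    have h2 : o.length = Fintype.card ι := by simp [o, Finset.card_univ]
    omega
  obtain ⟨L, hL1, hL2⟩ := hy tt htt1 htt2
  let f : ι → List (FreeGroup Λ × (U → Λ)) := fun i =>
    match l.idxFun i with
    | none => L
    | some u => [(1, fun _ => y u)]
  let LL : List (FreeGroup Λ × (U → Λ)) := o.flatMap f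
  have hLLval : ∀ s, (LL.map fun a => a.1 * FreeGroup.of (a.2 s)).prod = EE (l s) := by
    intro s
    refine prod_flatMap_aux o f s (fun i => FreeGroup.of (y (l s i))) ?_
    intro i
    have hval : l s i = (l.idxFun i).getD s := rfl
    rcases hi : l.idxFun i with _ | u
    · have hf : f i = L := by simp [f, hi]
      rw [hf, hL1 s, hval, hi]
      rfl
    · have hf : f i = [(1, fun _ => y u)] := by simp [f, hi]
      rw [hf, hval, hi]
      simp
  -- unravel
  let M : (U → Λ) → U → Λ := fun k s => k s
  let L' : List (BW Λ × (U → Λ)) := LL.map fun a => (q a.1, a.2)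
  have hP : ∀ s, prodP t (L'.map fun a => (a.1, M a.2 s)) = (φ (EE (l s))).val := by
    intro s
    have := key (LL.map fun a => (a.1, M a.2 s))
    simp only [List.map_map, Function.comp_def] at this
    simp only [L', List.map_map, Function.comp_def]
    rw [← hLLval s]
    exact this.symm
  obtain ⟨T, hT1, hT2⟩ := unravel t M L' (fun _ => col ⁻¹' {c}) (by
    intro s
    rw [hP]
    have h1 := hclr' (EE (l s))
    have h2 : clr (EE (l s)) = c := hl s
    rwa [h2] at h1)
  -- the table
  let W : U → Fin T.length → Λ := fun s p => ev M (T.get p) s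
  have hiso : ∀ s s', ∑ p, d (W s p) (W s' p) = D s s' := by
    intro s s'
    let G : (U → Λ) → ℝ := fun k => d (k s) (k s')
    have h1 : ∀ p, d (W s p) (W s' p) = wt G (T.get p) := by
      intro p
      simp only [W]
      rcases T.get p with k | x
      · simp [ev, wt, G, M]
      · simp [ev, wt, hd]
    rw [Finset.sum_congr rfl fun p _ => h1 p]
    have h2 : ∑ p, wt G (T.get p) = (T.map (wt G)).sum := by
      calc ∑ p, wt G (T.get p) = (List.ofFn (wt G ∘ T.get)).sum := by
            rw [List.sum_ofFn]; rfl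
        _ = ((List.ofFn T.get).map (wt G)).sum := by rw [List.map_ofFn]
        _ = _ := by rw [List.ofFn_get]
    rw [h2, hT1 G]
    have h3 : (L'.map fun a => G a.2).sum = (LL.map fun a => G a.2).sum := by
      simp [L', Function.comp_def]
    rw [h3]
    have h4 := sum_flatMap_aux o (fun i => l.idxFun i = none) f L G
      (fun i hi => by simp [f, hi])
      (fun i hi => by
        rcases hu : l.idxFun i with _ | u
        · exact absurd hu hi
        · simp [f, hu, G, hd])
    simp only [LL]
    rw [h4]
    exact hL2 s s'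
  obtain ⟨s₁, s₂, hne⟩ := hχ T.length W hiso
  apply hne
  have e1 := hcol T (fun x => ev M x s₁)
  have e2 := hcol T (fun x => ev M x s₂)
  have c1 : col (FreeMonoid.ofList (T.map fun x => ev M x s₁)) = c := hT2 s₁
  have c2 : col (FreeMonoid.ofList (T.map fun x => ev M x s₂)) = c := hT2 s₂
  exact (e1.symm.trans c1).trans (e2.symm.trans c2).symm

end core

section euclid

variable {ι : Type} [Fintype ι] {U : Type} [Fintype U] [Nonempty U]

/-- The Euclidean form. -/
theorem isRamsey_of_family (x : U → EuclideanSpace ℝ ι) (X : Set (EuclideanSpace ℝ ι))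
    (hX : ∀ y ∈ X, ∃ s, x s = y) (e : ℝ → EuclideanSpace ℝ ι)
    (he : ∀ a b, dist (e a) (e b) ^ 2 = (a - b) ^ 2)
    (h : ∀ M : ℕ, ∃ y : U → ℝ, ∀ t : ℕ, 1 ≤ t → t ≤ M →
      ∃ L : List (FreeGroup ℝ × (U → ℝ)),
        (∀ s, (L.map fun a => a.1 * FreeGroup.of (a.2 s)).prod = FreeGroup.of (y s)) ∧
        ∀ s s', (t : ℝ) * (L.map fun a => (a.2 s - a.2 s') ^ 2).sum = dist (x s) (x s') ^ 2) :
    IsRamsey X := by
  classical
  intro r _
  obtain ⟨N, hN⟩ := lineCopy (fun a b : ℝ => (a - b) ^ 2) (by simp)
    (fun s s' => dist (x s) (x s') ^ 2) h r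
  let D : ℕ := Fintype.card ((Fin N × ι) ⊕ Unit)
  have hDpos : 1 ≤ D := Fintype.card_pos
  let eq : (Fin N × ι) ⊕ Unit ≃ Fin D := Fintype.equivFin _
  refine ⟨D, hDpos, fun c => ?_⟩
  obtain ⟨W, hW1, hW2⟩ := hN (fun u => c (wordVecE eq e u))
  let tok : ∀ y : EuclideanSpace ℝ ι, y ∈ X → U := fun y hy => Classical.choose (hX y hy)
  have htok : ∀ y (hy : y ∈ X), x (tok y hy) = y := fun y hy => Classical.choose_spec (hX y hy)
  obtain ⟨s₀⟩ := (inferInstance : Nonempty U)
  refine ⟨fun y => if hy : y ∈ X then wordVecE eq e (W (tok y hy)) else 0,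
    c (wordVecE eq e (W s₀)), ?_, ?_⟩
  · intro a ha b hb
    simp only [dif_pos ha, dif_pos hb]
    have hsq : dist (wordVecE eq e (W (tok a ha))) (wordVecE eq e (W (tok b hb))) ^ 2
        = dist a b ^ 2 := by
      rw [dist_wordVecE_sq]
      simp only [he]
      rw [hW1, htok a ha, htok b hb]
    exact (pow_left_inj₀ dist_nonneg dist_nonneg (by norm_num)).mp hsq
  · intro a ha
    simp only [dif_pos ha]
    exact hW2 _ _

end euclid

end Vale.Agent.Lib.P058.Quad
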