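import Vale.Agent.Lib.P058.Quad.Rules

/-! # P058: the tree of readings, from the four rules to the family of readings of one column -/

namespace Vale.Agent.Lib.P058.Quad

namespace TreeCore

variable {w : ℝ}

/-- Closure under the four rules, in the abstract. -/
structure Sys (w : ℝ) (AI AII AIII AIV : ℝ → Prop) : Prop where
  hw : w ^ 2 = 2 * w + 1
  h0 : AI 0
  h1 : AII 1
  R1 : ∀ a b, AI a → AII b → AIII (a + b)
  R2 : ∀ a b, AI a → AII b → AIV (w ^ 2 * a + b)
  R3 : ∀ x y, AIV x → AIII y → AI ((x + y) / 2)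
  R4 : ∀ x y, AIV x → AIII y → AII (x / 2 + w ^ 2 / 2 * y)

variable {AI AII AIII AIV : ℝ → Prop}

/-- The set of values `w a + b`. -/
def TT (w : ℝ) (AI AII : ℝ → Prop) (T : ℝ) : Prop := ∃ a b, AI a ∧ AII b ∧ T = w * a + b

theorem comb (S : Sys w AI AII AIII AIV) {T1 T2 T3 T4 : ℝ} (h1 : TT w AI AII T1) (h2 : TT w AI AII T2)
    (h3 : TT w AI AII T3) (h4 : TT w AI AII T4) :
    TT w AI AII ((w ^ 2 * T1 + T2 + w * T3 + w * T4) / 2) := by
  obtain ⟨a1, b1, ha1, hb1, rfl⟩ := h1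
  obtain ⟨a2, b2, ha2, hb2, rfl⟩ := h2
  obtain ⟨a3, b3, ha3, hb3, rfl⟩ := h3
  obtain ⟨a4, b4, ha4, hb4, rfl⟩ := h4
  -- `T1 = w a1 + b1`, `T2 = w a2 + b2`, `T3 = w a3 + b3`, `T4 = w a4 + b4`
  have hI := S.R3 _ _ (S.R2 a1 b3 ha1 hb3) (S.R1 a2 b4 ha2 hb4)
  have hII := S.R4 _ _ (S.R2 a3 b2 ha3 hb2) (S.R1 a4 b1 ha4 hb1)
  refine ⟨_, _, hI, hII, ?_⟩
  ring

theorem mul_sq (S : Sys w AI AII AIII AIV) {x : ℝ} (h : TT w AI AII x) : TT w AI AII (w ^ 2 * x) := by
  have := comb S h h h h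
  have e : (w ^ 2 * x + x + w * x + w * x) / 2 = w ^ 2 * x := by
    linear_combination (-(x / 2)) * S.hw
  rwa [e] at this

theorem mul_cube (S : Sys w AI AII AIII AIV) {x : ℝ} (h : TT w AI AII x) : TT w AI AII (w ^ 3 * x) := by
  have h2 := mul_sq S h
  have := comb S h h2 h h2
  have e : (w ^ 2 * x + w ^ 2 * x + w * x + w * (w ^ 2 * x)) / 2 = w ^ 3 * x := by
    linear_combination (-(w * x / 2)) * S.hw
  rwa [e] at this

theorem add4 (S : Sys w AI AII AIII AIV) {x z : ℝ} (hx : TT w AI AII x) (hz : TT w AI AII z) :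
    TT w AI AII (w ^ 4 * (x + z)) := by
  have h2 := mul_sq S hx
  have h4 : TT w AI AII (w ^ 4 * z) := by
    have := mul_sq S (mul_sq S hz)
    have e : w ^ 2 * (w ^ 2 * z) = w ^ 4 * z := by ring
    rwa [e] at this
  have := comb S h2 h4 (mul_cube S hx) (mul_cube S hz)
  have e : (w ^ 2 * (w ^ 2 * x) + w ^ 4 * z + w * (w ^ 3 * x) + w * (w ^ 3 * z)) / 2 = w ^ 4 * (x + z) := by
    ring
  rwa [e] at this

theorem one_mem (S : Sys w AI AII AIII AIV) : TT w AI AII 1 :=
  ⟨0, 1, S.h0, S.h1, by ring⟩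

theorem pow4_mul (S : Sys w AI AII AIII AIV) {x : ℝ} (h : TT w AI AII x) (k : ℕ) :
    TT w AI AII (w ^ (4 * k) * x) := by
  induction k with
  | zero => simpa using h
  | succ k ih =>
    have := mul_sq S (mul_sq S ih)
    have e : w ^ 2 * (w ^ 2 * (w ^ (4 * k) * x)) = w ^ (4 * (k + 1)) * x := by ring
    rwa [e] at this

theorem nat_mem (S : Sys w AI AII AIII AIV) (n : ℕ) :
    TT w AI AII (((n : ℝ) + 1) * w ^ (4 * n)) := by
  induction n with
  | zero => simpa using one_mem S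
  | succ n ih =>
    have hz : TT w AI AII (w ^ (4 * n)) := by
      have := pow4_mul S (one_mem S) n
      simpa using this
    have := add4 S ih hz
    have e : w ^ 4 * (((n : ℝ) + 1) * w ^ (4 * n) + w ^ (4 * n)) =
        (((n + 1 : ℕ) : ℝ) + 1) * w ^ (4 * (n + 1)) := by
      push_cast
      ring
    rwa [e] at this

/-- For every `M` with `L = M!`: `(L / t) w^(4 L)` is in `TT` for all `1 ≤ t ≤ M`. -/
theorem family (S : Sys w AI AII AIII AIV) (M t : ℕ) (ht : 1 ≤ t) (htM : t ≤ M) :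
    TT w AI AII (((M.factorial / t : ℕ) : ℝ) * w ^ (4 * M.factorial)) := by
  have hd : t ∣ M.factorial := Nat.dvd_factorial ht htM
  have hpos : 0 < M.factorial / t := Nat.div_pos (Nat.le_of_dvd (Nat.factorial_pos M) hd) ht
  obtain ⟨n, hn⟩ : ∃ n, M.factorial / t = n + 1 := ⟨M.factorial / t - 1, by omega⟩
  have hle : n ≤ M.factorial := by
    have : M.factorial / t ≤ M.factorial := Nat.div_le_self _ _
    omega
  have h := pow4_mul S (nat_mem S n) (M.factorial - n)
  have e : w ^ (4 * (M.factorial - n)) * (((n : ℝ) + 1) * w ^ (4 * n)) =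
      ((M.factorial / t : ℕ) : ℝ) * w ^ (4 * M.factorial) := by
    rw [hn]
    have : 4 * M.factorial = 4 * (M.factorial - n) + 4 * n := by omega
    rw [this, pow_add]
    push_cast
    ring
  rwa [e] at h


end TreeCore

noncomputable section

theorem w_pos' : 0 < w := by
  unfold w
  positivity

/-- The four rules as an abstract system. -/
theorem sys : TreeCore.Sys w AI AII AIII AIV where
  hw := w_sq
  h0 := AI_zero
  h1 := AII_one
  R1 := fun _ _ h1 h2 => rule_III h1 h2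
  R2 := fun _ _ h1 h2 => rule_IV h1 h2
  R3 := fun _ _ h1 h2 => rule_I h1 h2
  R4 := fun _ _ h1 h2 => rule_II h1 h2

/-- The column of the plane point: `√w cI + cII`. -/
def y0 : Fin 4 → ℝ := fun s => Real.sqrt w * cI s + cII s

/-- A value `T` of the tree gives a reading of `y0` with squared differences `T` times the squared
distances of the quadrilateral. -/
theorem y0_reads {T : ℝ} (hT : TreeCore.TT w AI AII T) : Reads y0 (w * T) T := by
  obtain ⟨a, b, ha, hb, rfl⟩ := hT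
  have hs : Real.sqrt w ^ 2 = w := Real.sq_sqrt w_pos'.le
  have hK1 := reads_scale w (Real.sqrt w) ha
  have hK2 : Reads cII (w * (b - 1)) b := hb
  have h := split12 (y := y0) (z := w) (K1 := fun s => w + Real.sqrt w * cI s) (K2 := cII)
    (by simp [y0, cI, cII]; ring) (by simp [y0, cI, cII]; ring)
    (by simp [cI]) (by simp [cI])
    (by simp [cII]) (by simp [cII])
    (by simp [y0, cI]) (by simp [y0, cI]) hK1 hK2
  rw [hs] at h
  have e1 : w * (1 + w * a) + w * (b - 1) = w * (w * a + b) := by ring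
  rw [e1] at h
  exact h

/-- The family: one column `y`, read for each `1 ≤ t ≤ M` by a list whose squared differences are
`1 / t` times the squared distances of the quadrilateral. -/
theorem exists_family (M : ℕ) : ∃ y : Fin 4 → ℝ, ∀ t : ℕ, 1 ≤ t → t ≤ M → Reads y (w / t) (1 / t) := by
  set L := M.factorial with hL
  have hLpos : (0 : ℝ) < L := by exact_mod_cast Nat.factorial_pos M
  have hWpos : (0 : ℝ) < w ^ (4 * L) := pow_pos w_pos' _
  set B : ℝ := L * w ^ (4 * L) with hB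
  have hBpos : 0 < B := mul_pos hLpos hWpos
  refine ⟨fun s => 0 + (Real.sqrt B)⁻¹ * y0 s, fun t ht htM => ?_⟩
  have hT := TreeCore.family sys M t ht htM
  have h := reads_scale 0 (Real.sqrt B)⁻¹ (y0_reads hT)
  have hk : ((Real.sqrt B)⁻¹) ^ 2 = B⁻¹ := by
    rw [inv_pow, Real.sq_sqrt hBpos.le]
  rw [hk] at h
  have hd : t ∣ L := Nat.dvd_factorial ht htM
  have htpos : (0 : ℝ) < t := by exact_mod_cast ht
  have hdiv : ((L / t : ℕ) : ℝ) = (L : ℝ) / t := Nat.cast_div hd htpos.ne'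
  have e2 : B⁻¹ * (((L / t : ℕ) : ℝ) * w ^ (4 * L)) = 1 / t := by
    rw [hdiv, hB]
    field_simp
  have e1 : B⁻¹ * (w * (((L / t : ℕ) : ℝ) * w ^ (4 * L))) = w / t := by
    have : B⁻¹ * (w * (((L / t : ℕ) : ℝ) * w ^ (4 * L))) =
        w * (B⁻¹ * (((L / t : ℕ) : ℝ) * w ^ (4 * L))) := by ring
    rw [this, e2]
    ring
  rw [e1, e2] at h
  exact h

/-- The family, spelled out as the core theorem wants it. -/
theorem exists_family_L (M : ℕ) : ∃ y : Fin 4 → ℝ, ∀ t : ℕ, 1 ≤ t → t ≤ M →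
    ∃ L : List (FreeGroup ℝ × (Fin 4 → ℝ)),
      (∀ s, (L.map fun a => a.1 * FreeGroup.of (a.2 s)).prod = FreeGroup.of (y s)) ∧
      ∀ s s', (t : ℝ) * (L.map fun a => (a.2 s - a.2 s') ^ 2).sum =
        w * (cI s - cI s') ^ 2 + (cII s - cII s') ^ 2 := by
  obtain ⟨y, hy⟩ := exists_family M
  refine ⟨y, fun t ht htM => ?_⟩
  obtain ⟨L, h1, h2⟩ := hy t ht htM
  refine ⟨L, h1, fun s s' => ?_⟩
  have htpos : (0 : ℝ) < t := by exact_mod_cast ht
  rw [h2 s s']
  field_simp

end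

end Vale.Agent.Lib.P058.Quad

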