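import Vale.Agent.Lib.P058.Quad.Assemble
import Vale.Agent.Lib.P058.Quad.Tree

/-! # P058: the quadrilateral is Ramsey -/

namespace Vale.Agent.Lib.P058.Quad

noncomputable section

open Vale.Agent.Lib.P058

theorem quad_isRamsey : IsRamsey quad := by
  refine quad_isRamsey_of fun M => ?_
  obtain ⟨y, hy⟩ := exists_family M
  refine ⟨y, fun t h1 h2 => ?_⟩
  obtain ⟨L, hL1, hL2⟩ := hy t h1 h2
  refine ⟨L, hL1, fun s s' => ?_⟩
  rw [hL2]
  have ht : (t : ℝ) ≠ 0 := by
    have : 0 < t := h1
    positivity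
  field_simp

theorem quad_finite : quad.Finite := Set.finite_range _

end

end Vale.Agent.Lib.P058.Quad
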