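import Vale.Agent.Lib.P058.Quad.Defs
import Vale.Agent.Lib.P058.RatDepRep

/-! # P058: the quadrilateral is not subtransitive

The affine dependency `λ = (1, √2 - 2, 1, -√2)` holds in each column of an orbit representation; a
`ℚ`-linear map `ψ` with `ψ (√2 x) = -√2 ψ x` conjugates it to the dependency
`(1, -2 - √2, 1, √2)` of sign type `(3, 1)`, and strict convexity of the square then forces `ψ` to be
constant on each column. -/

namespace Vale.Agent.Lib.P058.Quad

open Finset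
open Vale.Agent.Lib.P058 Vale.Agent.Lib.P058.RatAff

/-- Conjugating the dependency in the columns of a rearrangement. -/
theorem core {κ : Type} [Fintype κ] [DecidableEq κ] (v : κ → ℝ) (σ : Fin 4 → Equiv.Perm κ)
    (hcol : ∀ k, v (σ 0 k) + (Real.sqrt 2 - 2) * v (σ 1 k) + v (σ 2 k) - Real.sqrt 2 * v (σ 3 k) = 0)
    (k : κ) (a b : Fin 4) (hne : v (σ a k) ≠ v (σ b k)) : False := by
  classical
  set s := Real.sqrt 2 with hsdef
  have hs : s * s = 2 := Real.mul_self_sqrt (by norm_num)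
  have hs0 : 0 < s := Real.sqrt_pos.2 (by norm_num)
  have hirr : Irrational s := irrational_sqrt_two
  have hδ : v (σ a k) - v (σ b k) ≠ 0 := sub_ne_zero.2 hne
  obtain ⟨l, hl⟩ : ∃ l : Module.Dual ℚ ℝ, l (v (σ a k) - v (σ b k)) ≠ 0 := by
    by_contra hcon
    push Not at hcon
    exact hδ ((Module.forall_dual_apply_eq_zero_iff ℚ _).1 hcon)
  let ψ : ℝ →+ ℝ := AddMonoidHom.mk' (fun x => ((l x : ℚ) : ℝ) - (s / 2) * ((l (s * x) : ℚ) : ℝ)) (by
    intro x y
    simp only [mul_add, map_add, Rat.cast_add]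
    ring)
  have hψ : ∀ x, ψ x = ((l x : ℚ) : ℝ) - (s / 2) * ((l (s * x) : ℚ) : ℝ) := fun x => rfl
  have hψs : ∀ x, ψ (s * x) = - s * ψ x := by
    intro x
    rw [hψ, hψ]
    have e : s * (s * x) = x + x := by
      rw [← mul_assoc, hs]
      ring
    rw [e, map_add, Rat.cast_add]
    linear_combination (((l (s * x) : ℚ) : ℝ) / 2) * (- hs)
  have hrel : ∀ y0 y1 y2 y3 : ℝ, y0 + (s - 2) * y1 + y2 - s * y3 = 0 →
      ψ y0 - (2 + s) * ψ y1 + ψ y2 + s * ψ y3 = 0 := by
    intro y0 y1 y2 y3 h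
    have e : y0 = y1 + y1 - s * y1 - y2 + s * y3 := by linear_combination h
    have e2 : ψ y0 = ψ y1 + ψ y1 - ψ (s * y1) - ψ y2 + ψ (s * y3) := by
      rw [e]
      simp only [map_add, map_sub]
    rw [e2, hψs, hψs]
    ring
  let u : Fin 4 → κ → ℝ := fun c j => ψ (v (σ c j))
  have hu : ∀ j, u 0 j - (2 + s) * u 1 j + u 2 j + s * u 3 j = 0 := fun j => hrel _ _ _ _ (hcol j)
  have hR : ∀ c, ∑ j, (u c j) ^ 2 = ∑ j, (ψ (v j)) ^ 2 := fun c =>
    Equiv.sum_comp (σ c) (fun j => (ψ (v j)) ^ 2)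
  set R := ∑ j, (ψ (v j)) ^ 2 with hRdef
  have hpt : ∀ j, (u 0 j - u 2 j) ^ 2 + s * (u 0 j - u 3 j) ^ 2 + s * (u 2 j - u 3 j) ^ 2 =
      (2 + s) * (u 0 j ^ 2 + u 2 j ^ 2 + s * u 3 j ^ 2) - (2 + s) ^ 2 * u 1 j ^ 2 := by
    intro j
    have e1 : (2 + s) * u 1 j = u 0 j + u 2 j + s * u 3 j := by linear_combination - hu j
    have e2 : (2 + s) ^ 2 * u 1 j ^ 2 = (u 0 j + u 2 j + s * u 3 j) ^ 2 := by
      rw [← e1]
      ring
    rw [e2]
    ring
  have hsum : ∑ j, ((u 0 j - u 2 j) ^ 2 + s * (u 0 j - u 3 j) ^ 2 + s * (u 2 j - u 3 j) ^ 2) = 0 := by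
    simp_rw [hpt]
    rw [Finset.sum_sub_distrib, ← Finset.mul_sum, ← Finset.mul_sum, Finset.sum_add_distrib,
      Finset.sum_add_distrib, ← Finset.mul_sum, hR, hR, hR, hR]
    ring
  have hzero := (Finset.sum_eq_zero_iff_of_nonneg (fun j _ => by positivity)).1 hsum k (Finset.mem_univ k)
  have h1 : (u 0 k - u 2 k) ^ 2 = 0 := by
    have h2 : 0 ≤ s * (u 0 k - u 3 k) ^ 2 := by positivity
    have h3 : 0 ≤ s * (u 2 k - u 3 k) ^ 2 := by positivity
    have h4 : 0 ≤ (u 0 k - u 2 k) ^ 2 := by positivity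
    linarith
  have h2 : (u 0 k - u 3 k) ^ 2 = 0 := by
    have h3 : 0 ≤ s * (u 2 k - u 3 k) ^ 2 := by positivity
    have h4 : 0 ≤ (u 0 k - u 2 k) ^ 2 := by positivity
    have h5 : 0 ≤ s * (u 0 k - u 3 k) ^ 2 := by positivity
    have h6 : s * (u 0 k - u 3 k) ^ 2 = 0 := by linarith
    exact (mul_eq_zero.1 h6).resolve_left hs0.ne'
  have e02 : u 2 k = u 0 k := by
    have := pow_eq_zero_iff (two_ne_zero) |>.1 h1
    linarith
  have e03 : u 3 k = u 0 k := by
    have := pow_eq_zero_iff (two_ne_zero) |>.1 h2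
    linarith
  have e01 : u 1 k = u 0 k := by
    have h := hu k
    rw [e02, e03] at h
    have hT : (2 + s) * (u 1 k - u 0 k) = 0 := by linear_combination - h
    have := (mul_eq_zero.1 hT).resolve_left (by positivity)
    linarith
  have hall : ∀ c, u c k = u 0 k := by
    intro c
    fin_cases c
    · rfl
    · exact e01
    · exact e02
    · exact e03
  have hψδ : ψ (v (σ a k) - v (σ b k)) = 0 := by
    rw [map_sub]
    have ha := hall a
    have hb := hall b
    simp only [u] at ha hb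
    rw [ha, hb, sub_self]
  rw [hψ] at hψδ
  set p := l (v (σ a k) - v (σ b k)) with hp
  set q := l (s * (v (σ a k) - v (σ b k))) with hq
  have hp' : (p : ℝ) ≠ 0 := by exact_mod_cast hl
  have hq' : (q : ℝ) ≠ 0 := by
    intro h0
    rw [h0] at hψδ
    apply hp'
    linarith
  apply hirr
  refine ⟨2 * p / q, ?_⟩
  push_cast
  field_simp
  linarith

/-- The squared distances of the quadrilateral. -/
theorem pt_dist (a b : Fin 4) :
    dist (pt a) (pt b) ^ 2 = w * (cI a - cI b) ^ 2 + (cII a - cII b) ^ 2 := by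
  have hw : (0 : ℝ) ≤ w := by
    unfold w
    positivity
  rw [dist_sq_eq, Fin.sum_univ_two]
  have h0 : ∀ c, (pt c) 0 = Real.sqrt w * cI c := fun c => rfl
  have h1 : ∀ c, (pt c) 1 = cII c := fun c => rfl
  rw [h0, h0, h1, h1]
  have := Real.sq_sqrt hw
  linear_combination ((cI a - cI b) ^ 2) * this

/-- Every family with the distances of the quadrilateral satisfies its affine dependency in every
coordinate. -/
theorem col_zero {N : ℕ} (z : Fin 4 → EuclideanSpace ℝ (Fin N))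
    (hz : ∀ a b, dist (z a) (z b) = dist (pt a) (pt b)) (e : Fin N) :
    z 0 e + (Real.sqrt 2 - 2) * z 1 e + z 2 e - Real.sqrt 2 * z 3 e = 0 := by
  set s := Real.sqrt 2 with hsdef
  have hs : s * s = 2 := Real.mul_self_sqrt (by norm_num)
  have hD : ∀ a b, ∑ i, (z a i - z b i) ^ 2 = w * (cI a - cI b) ^ 2 + (cII a - cII b) ^ 2 := by
    intro a b
    rw [← dist_sq_eq, hz, pt_dist]
  have hI0 : cI 0 = s := rfl
  have hI1 : cI 1 = 1 + s := rfl
  have hI2 : cI 2 = 0 := rfl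
  have hI3 : cI 3 = 0 := rfl
  have hJ0 : cII 0 = 1 + s := rfl
  have hJ1 : cII 1 = 1 + s := rfl
  have hJ2 : cII 2 = -1 := rfl
  have hJ3 : cII 3 = 0 := rfl
  have hww : w = 1 + s := rfl
  have hsum : ∑ i, (z 0 i + (s - 2) * z 1 i + z 2 i - s * z 3 i) ^ 2 = 0 := by
    have hpt : ∀ i, (z 0 i + (s - 2) * z 1 i + z 2 i - s * z 3 i) ^ 2 =
        -((s - 2) * (z 0 i - z 1 i) ^ 2 + (z 0 i - z 2 i) ^ 2 - s * (z 0 i - z 3 i) ^ 2
          + (s - 2) * (z 1 i - z 2 i) ^ 2 - s * (s - 2) * (z 1 i - z 3 i) ^ 2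
          - s * (z 2 i - z 3 i) ^ 2) := by
      intro i
      ring
    simp_rw [hpt]
    rw [Finset.sum_neg_distrib, Finset.sum_sub_distrib, Finset.sum_sub_distrib, Finset.sum_add_distrib,
      Finset.sum_sub_distrib, Finset.sum_add_distrib, ← Finset.mul_sum, ← Finset.mul_sum,
      ← Finset.mul_sum, ← Finset.mul_sum, ← Finset.mul_sum, hD, hD, hD, hD, hD, hD, hI0, hI1, hI2,
      hI3, hJ0, hJ1, hJ2, hJ3, hww]
    have h4 : s * s * s = 2 * s := by rw [hs]
    have h5 : s * s * s * s = 4 := by rw [hs, mul_assoc, hs]; norm_num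
    nlinarith [hs, h4, h5]
  have h := (Finset.sum_eq_zero_iff_of_nonneg (fun i _ => by positivity)).1 hsum e (Finset.mem_univ e)
  exact pow_eq_zero_iff two_ne_zero |>.1 h

/-- **The quadrilateral is not subtransitive.** -/
theorem not_isSubtransitive : ¬ IsSubtransitive quad := by
  classical
  rintro ⟨n, X, f, ⟨hfin, htr⟩, hfX, hd⟩
  have hptmem : ∀ a, pt a ∈ quad := fun a => ⟨a, rfl⟩
  let x : Fin 4 → EuclideanSpace ℝ (Fin n) := fun a => f (pt a)
  have hx : ∀ a, x a ∈ X := fun a => hfX _ (hptmem a)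
  have hdx : ∀ a b, dist (x a) (x b) = dist (pt a) (pt b) := fun a b => hd _ (hptmem a) _ (hptmem b)
  have : Finite X := hfin
  let _ : Fintype (isoG X) := Fintype.ofFinite _
  let y0 : X := ⟨x 0, hx 0⟩
  have hg : ∀ a, ∃ g : isoG X, ((g : Equiv.Perm X) y0 : EuclideanSpace ℝ (Fin n)) = x a := by
    intro a
    obtain ⟨g, hgY, hga⟩ := htr (x 0) (hx 0) (x a) (hx a)
    have hmem : ∀ y ∈ X, g y ∈ X := fun y hy => hgY ▸ Set.mem_image_of_mem g hy
    have hmem' : ∀ y ∈ X, g.symm y ∈ X := by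
      intro y hy
      rw [← hgY] at hy
      obtain ⟨z, hz, rfl⟩ := hy
      simpa using hz
    let σ : Equiv.Perm X :=
      { toFun := fun y => ⟨g y.1, hmem y.1 y.2⟩
        invFun := fun y => ⟨g.symm y.1, hmem' y.1 y.2⟩
        left_inv := fun y => Subtype.ext (by simp)
        right_inv := fun y => Subtype.ext (by simp) }
    exact ⟨⟨σ, fun p q => g.isometry.dist_eq p.1 q.1⟩, hga⟩
  choose g hgf using hg
  let v : isoG X × Fin n → ℝ := fun p => ((p.1 : Equiv.Perm X) y0 : EuclideanSpace ℝ (Fin n)) p.2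
  let σ : Fin 4 → Equiv.Perm (isoG X × Fin n) :=
    fun a => (Equiv.mulRight (g a)).prodCongr (Equiv.refl _)
  have hv : ∀ a (h : isoG X) e, v (σ a (h, e)) =
      (((h * g a : isoG X) : Equiv.Perm X) y0 : EuclideanSpace ℝ (Fin n)) e := fun a h e => rfl
  have hcol : ∀ k, v (σ 0 k) + (Real.sqrt 2 - 2) * v (σ 1 k) + v (σ 2 k)
      - Real.sqrt 2 * v (σ 3 k) = 0 := by
    rintro ⟨h, e⟩
    simp only [hv]
    refine col_zero (fun a => (((h * g a : isoG X) : Equiv.Perm X) y0 : EuclideanSpace ℝ (Fin n)))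
      ?_ e
    intro a b
    have := h.2 ((g a : Equiv.Perm X) y0) ((g b : Equiv.Perm X) y0)
    rw [hgf, hgf] at this
    exact this.trans (hdx a b)
  -- a column which is not constant
  have h23 : dist (x 2) (x 3) ^ 2 = 1 := by
    rw [hdx, pt_dist]
    have hI2 : cI 2 = 0 := rfl
    have hI3 : cI 3 = 0 := rfl
    have hJ2 : cII 2 = -1 := rfl
    have hJ3 : cII 3 = 0 := rfl
    rw [hI2, hI3, hJ2, hJ3]
    norm_num
  have hne : ∃ e, x 2 e ≠ x 3 e := by
    by_contra hcon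
    push Not at hcon
    rw [dist_sq_eq] at h23
    simp [hcon] at h23
  obtain ⟨e, he⟩ := hne
  refine core v σ hcol (1, e) 2 3 ?_
  rw [hv, hv, one_mul, one_mul, hgf, hgf]
  exact he

end Vale.Agent.Lib.P058.Quad
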