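import Vale.Agent.Lib.P058.Quad.Tree
import Vale.Agent.Lib.P058.Quad.Core

/-! # P058: the quadrilateral is Ramsey -/

namespace Vale.Agent.Lib.P058.Quad

open Vale.Agent.Lib.P058

/-- The squared distances of the quadrilateral. -/
theorem dist_pt_sq_r (s s' : Fin 4) :
    dist (pt s) (pt s') ^ 2 = w * (cI s - cI s') ^ 2 + (cII s - cII s') ^ 2 := by
  have hw : 0 ≤ w := by
    unfold w
    positivity
  have hs : Real.sqrt w ^ 2 = w := Real.sq_sqrt hw
  rw [EuclideanSpace.dist_eq, Real.sq_sqrt (by positivity), Fin.sum_univ_two]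
  simp only [pt, Real.dist_eq, sq_abs]
  simp only [Matrix.cons_val_zero, Matrix.cons_val_one]
  have e : Real.sqrt w * cI s - Real.sqrt w * cI s' = Real.sqrt w * (cI s - cI s') := by ring
  rw [e, mul_pow, hs]

/-- A line in the plane. -/
noncomputable def line (a : ℝ) : EuclideanSpace ℝ (Fin 2) := WithLp.toLp 2 ![a, 0]

theorem dist_line_sq (a b : ℝ) : dist (line a) (line b) ^ 2 = (a - b) ^ 2 := by
  rw [EuclideanSpace.dist_eq, Real.sq_sqrt (by positivity), Fin.sum_univ_two]
  simp [line, Real.dist_eq, sq_abs]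

/-- **The quadrilateral is Ramsey.** -/
theorem isRamsey_quad : IsRamsey quad := by
  refine isRamsey_of_family pt quad (fun y hy => ?_) line dist_line_sq (fun M => ?_)
  · obtain ⟨s, hs⟩ := hy
    exact ⟨s, hs⟩
  · obtain ⟨y, hy⟩ := exists_family_L M
    refine ⟨y, fun t ht htM => ?_⟩
    obtain ⟨L, h1, h2⟩ := hy t ht htM
    exact ⟨L, h1, fun s s' => by rw [h2 s s', dist_pt_sq_r]⟩

end Vale.Agent.Lib.P058.Quad
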