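import Vale.Agent.Lib.P058.Quad.Defs

/-! # P058: the rules for readings of columns in the free group -/

namespace Vale.Agent.Lib.P058.Quad

noncomputable section

theorem sqrt2_sq : Real.sqrt 2 ^ 2 = 2 := Real.sq_sqrt (by norm_num)

theorem w_sq : w ^ 2 = 2 * w + 1 := by
  unfold w
  nlinarith [sqrt2_sq]

theorem sqrt2_mul_w : Real.sqrt 2 * w = Real.sqrt 2 + 2 := by
  unfold w
  nlinarith [sqrt2_sq]

theorem reads_congr {y y' : Fin 4 → ℝ} {p q p' q' : ℝ} (h : Reads y p q) (hy : y = y') (hp : p = p')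
    (hq : q = q') : Reads y' p' q' := by
  subst hy hp hq
  exact h

theorem reads_leafI : Reads cI 1 0 :=
  ⟨[(1, cI)], fun s => by simp, fun s s' => by simp⟩

theorem reads_leafII : Reads cII 0 1 :=
  ⟨[(1, cII)], fun s => by simp, fun s s' => by simp⟩

/-- Scaling and translating a reading: apply `FreeGroup.map (fun l => c + k * l)`. -/
theorem reads_scale {y : Fin 4 → ℝ} {p q : ℝ} (c k : ℝ) (h : Reads y p q) :
    Reads (fun s => c + k * y s) (k ^ 2 * p) (k ^ 2 * q) := by
  obtain ⟨L, h1, h2⟩ := h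
  refine ⟨L.map (fun a => (FreeGroup.map (fun l => c + k * l) a.1, fun s => c + k * a.2 s)),
    fun s => ?_, fun s s' => ?_⟩
  · have h3 := congrArg (FreeGroup.map (fun l : ℝ => c + k * l)) (h1 s)
    rw [map_list_prod] at h3
    rw [FreeGroup.map.of] at h3
    rw [← h3, List.map_map, List.map_map]
    congr 1
    apply List.map_congr_left
    intro a _
    simp [FreeGroup.map.of]
  · have key : ∀ L : List (FreeGroup ℝ × (Fin 4 → ℝ)),
        (L.map fun a => ((c + k * a.2 s) - (c + k * a.2 s')) ^ 2).sum =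
          k ^ 2 * (L.map fun a => (a.2 s - a.2 s') ^ 2).sum := by
      intro L
      induction L with
      | nil => simp
      | cons a t ih =>
        simp only [List.map_cons, List.sum_cons, ih]
        ring
    rw [List.map_map]
    have h4 := key L
    have h5 := h2 s s'
    simp only [Function.comp_def]
    rw [h4, h5]
    ring

/-- Concatenate two readings, with the inverse of the common constant in between. -/
theorem split_gen {y K1 K2 : Fin 4 → ℝ} {z p q p2 q2 : ℝ}
    (h : ∀ s, FreeGroup.of (K1 s) * (FreeGroup.of z)⁻¹ * FreeGroup.of (K2 s) = FreeGroup.of (y s))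
    (h1 : Reads K1 p q) (h2 : Reads K2 p2 q2) : Reads y (p + p2) (q + q2) := by
  obtain ⟨L1, a1, b1⟩ := h1
  obtain ⟨L2, a2, b2⟩ := h2
  cases L2 with
  | nil =>
    have h3 := a2 0
    simp only [List.map_nil, List.prod_nil] at h3
    exact absurd h3.symm (FreeGroup.of_ne_one _)
  | cons a t =>
    refine ⟨L1 ++ ((FreeGroup.of z)⁻¹ * a.1, a.2) :: t, fun s => ?_, fun s s' => ?_⟩
    · have e1 := a1 s
      have e2 := a2 s
      simp only [List.map_cons, List.prod_cons] at e2
      simp only [List.map_append, List.prod_append, List.map_cons, List.prod_cons]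
      rw [e1, ← h s, ← e2]
      simp only [mul_assoc]
    · have e1 := b1 s s'
      have e2 := b2 s s'
      simp only [List.map_cons, List.sum_cons] at e2
      simp only [List.map_append, List.sum_append, List.map_cons, List.sum_cons]
      rw [e1, e2]
      ring

/-- Split the rows as `{0,1} | {2,3}`. -/
theorem split12 {y K1 K2 : Fin 4 → ℝ} {z p q p2 q2 : ℝ}
    (h0 : K1 0 = y 0) (h1 : K1 1 = y 1) (h2 : K1 2 = z) (h3 : K1 3 = z)
    (h4 : K2 0 = z) (h5 : K2 1 = z) (h6 : K2 2 = y 2) (h7 : K2 3 = y 3)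
    (hK1 : Reads K1 p q) (hK2 : Reads K2 p2 q2) : Reads y (p + p2) (q + q2) := by
  refine split_gen (z := z) (fun s => ?_) hK1 hK2
  fin_cases s
  · show FreeGroup.of (K1 0) * (FreeGroup.of z)⁻¹ * FreeGroup.of (K2 0) = FreeGroup.of (y 0)
    rw [h0, h4]; group
  · show FreeGroup.of (K1 1) * (FreeGroup.of z)⁻¹ * FreeGroup.of (K2 1) = FreeGroup.of (y 1)
    rw [h1, h5]; group
  · show FreeGroup.of (K1 2) * (FreeGroup.of z)⁻¹ * FreeGroup.of (K2 2) = FreeGroup.of (y 2)
    rw [h2, h6]; group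
  · show FreeGroup.of (K1 3) * (FreeGroup.of z)⁻¹ * FreeGroup.of (K2 3) = FreeGroup.of (y 3)
    rw [h3, h7]; group

/-- Split the rows as `{0,2} | {1,3}`. -/
theorem split13 {y K1 K2 : Fin 4 → ℝ} {z p q p2 q2 : ℝ}
    (h0 : K1 0 = y 0) (h1 : K1 2 = y 2) (h2 : K1 1 = z) (h3 : K1 3 = z)
    (h4 : K2 0 = z) (h5 : K2 2 = z) (h6 : K2 1 = y 1) (h7 : K2 3 = y 3)
    (hK1 : Reads K1 p q) (hK2 : Reads K2 p2 q2) : Reads y (p + p2) (q + q2) := by
  refine split_gen (z := z) (fun s => ?_) hK1 hK2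
  fin_cases s
  · show FreeGroup.of (K1 0) * (FreeGroup.of z)⁻¹ * FreeGroup.of (K2 0) = FreeGroup.of (y 0)
    rw [h0, h4]; group
  · show FreeGroup.of (K1 1) * (FreeGroup.of z)⁻¹ * FreeGroup.of (K2 1) = FreeGroup.of (y 1)
    rw [h2, h6]; group
  · show FreeGroup.of (K1 2) * (FreeGroup.of z)⁻¹ * FreeGroup.of (K2 2) = FreeGroup.of (y 2)
    rw [h1, h5]; group
  · show FreeGroup.of (K1 3) * (FreeGroup.of z)⁻¹ * FreeGroup.of (K2 3) = FreeGroup.of (y 3)
    rw [h3, h7]; group

/-- `cI` is read with parameter `a`. -/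
def AI (a : ℝ) : Prop := Reads cI (1 + w * a) a
/-- `cII` is read with parameter `a`. -/
def AII (a : ℝ) : Prop := Reads cII (w * (a - 1)) a
/-- `cIII` is read with parameter `x`. -/
def AIII (x : ℝ) : Prop := Reads cIII (w * x - Real.sqrt 2) x
/-- `cIV` is read with parameter `x`. -/
def AIV (x : ℝ) : Prop := Reads cIV (w * x + 2 + Real.sqrt 2) x

theorem AI_zero : AI 0 := by
  unfold AI
  exact reads_congr reads_leafI rfl (by ring) rfl

theorem AII_one : AII 1 := by
  unfold AII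
  exact reads_congr reads_leafII rfl (by ring) rfl

/-- `cIII = cII - cI`. -/
theorem rule_III {a1 a2 : ℝ} (h1 : AI a1) (h2 : AII a2) : AIII (a1 + a2) := by
  unfold AI at h1
  unfold AII at h2
  unfold AIII
  have hK1 := reads_scale w (-1) h1
  have hK2 := reads_scale 0 1 h2
  have h3 := split12 (y := cIII) (z := w) (by simp [cI, cIII, w]) (by simp [cI, cIII, w])
    (by simp [cI]) (by simp [cI]) (by simp [cII, w]) (by simp [cII, w]) (by simp [cII, cIII])
    (by simp [cII, cIII]) hK1 hK2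
  refine reads_congr h3 rfl ?_ (by ring)
  unfold w
  ring

/-- `cIV = w cI - cII`. -/
theorem rule_IV {a1 a2 : ℝ} (h1 : AI a1) (h2 : AII a2) : AIV (w ^ 2 * a1 + a2) := by
  unfold AI at h1
  unfold AII at h2
  unfold AIV
  have hK1 := reads_scale (-w) w h1
  have hK2 := reads_scale 0 (-1) h2
  have hw2 := w_sq
  have hsw := sqrt2_mul_w
  have h3 := split12 (y := cIV) (z := -w)
    (by
      simp only [cI, cIV, Matrix.cons_val_zero]
      have : w = 1 + Real.sqrt 2 := rfl
      nlinarith)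
    (by
      simp [cI, cIV]
      nlinarith)
    (by simp [cI]) (by simp [cI]) (by simp [cII]) (by simp [cII]) (by simp [cII, cIV])
    (by simp [cII, cIV]) hK1 hK2
  refine reads_congr h3 rfl ?_ (by ring)
  have : w = 1 + Real.sqrt 2 := rfl
  have e3 : w ^ 2 * w = (2 * w + 1) * w := by rw [hw2]
  nlinarith

/-- `cI = (√2/2) cIII + (√2/2) cIV`. -/
theorem rule_I {x x2 : ℝ} (h1 : AIV x) (h2 : AIII x2) : AI ((x + x2) / 2) := by
  unfold AIV at h1
  unfold AIII at h2
  unfold AI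
  have hs := sqrt2_sq
  have hK1 := reads_scale (Real.sqrt 2 / 2) (Real.sqrt 2 / 2) h2
  have hK2 := reads_scale 0 (Real.sqrt 2 / 2) h1
  have hw : w = 1 + Real.sqrt 2 := rfl
  have h3 := split13 (y := cI) (z := Real.sqrt 2 / 2)
    (by simp [cI, cIII])
    (by simp [cI, cIII])
    (by simp [cIII])
    (by simp [cIII])
    (by simp [cIV])
    (by simp [cIV])
    (by simp [cI, cIV, hw]; nlinarith)
    (by simp [cI, cIV]) hK1 hK2
  refine reads_congr h3 rfl ?_ ?_
  · have e : (Real.sqrt 2 / 2) ^ 2 = 1 / 2 := by nlinarith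
    rw [e]
    ring
  · have e : (Real.sqrt 2 / 2) ^ 2 = 1 / 2 := by nlinarith
    rw [e]
    ring

/-- `cII = (1 + √2/2) cIII + (√2/2) cIV`. -/
theorem rule_II {x x2 : ℝ} (h1 : AIV x) (h2 : AIII x2) : AII (x / 2 + w ^ 2 / 2 * x2) := by
  unfold AIV at h1
  unfold AIII at h2
  unfold AII
  have hs := sqrt2_sq
  have hw : w = 1 + Real.sqrt 2 := rfl
  have hw2 := w_sq
  have hK1 := reads_scale (Real.sqrt 2 / 2) (1 + Real.sqrt 2 / 2) h2
  have hK2 := reads_scale 0 (Real.sqrt 2 / 2) h1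
  have h3 := split13 (y := cII) (z := Real.sqrt 2 / 2)
    (by simp [cII, cIII, hw]; ring)
    (by simp [cII, cIII])
    (by simp [cIII])
    (by simp [cIII])
    (by simp [cIV])
    (by simp [cIV])
    (by simp [cII, cIV, hw]; nlinarith)
    (by simp [cII, cIV]) hK1 hK2
  have e1 : (Real.sqrt 2 / 2) ^ 2 = 1 / 2 := by nlinarith
  have e2 : (1 + Real.sqrt 2 / 2) ^ 2 = w ^ 2 / 2 := by
    rw [hw]
    nlinarith
  refine reads_congr h3 rfl ?_ ?_
  · rw [e1, e2]
    have e3 : w ^ 2 = 3 + 2 * Real.sqrt 2 := by rw [hw]; nlinarith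
    have e4 : w ^ 2 * Real.sqrt 2 = 3 * Real.sqrt 2 + 4 := by rw [e3]; nlinarith
    have e5 : w ^ 2 / 2 * (w * x2 - Real.sqrt 2) + 1 / 2 * (w * x + 2 + Real.sqrt 2) =
        w * (x / 2 + w ^ 2 / 2 * x2) - (w ^ 2 * Real.sqrt 2) / 2 + 1 + Real.sqrt 2 / 2 := by ring
    rw [e5, e4]
    rw [hw]
    ring
  · rw [e1, e2]
    ring

end

end Vale.Agent.Lib.P058.Quad
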