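import Vale.Agent.Lib.P058.Quad.Defs

/-! # P058: the four points of `quad` lie on a circle -/

namespace Vale.Agent.Lib.P058.Quad

/-- The four points of `quad` lie on a circle: its center is
`(√w (√2 + w) / 2, -1/2)`. -/
theorem quad_spherical :
    ∃ (z : EuclideanSpace ℝ (Fin 2)) (ρ : ℝ), ∀ x ∈ quad, dist x z = ρ := by
  have hw0 : 0 ≤ w := by
    unfold w
    have := Real.sqrt_nonneg 2
    linarith
  obtain ⟨a, ha0⟩ : ∃ a : ℝ, a = Real.sqrt w := ⟨_, rfl⟩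
  obtain ⟨r, hr0⟩ : ∃ r : ℝ, r = Real.sqrt 2 := ⟨_, rfl⟩
  have ha : a ^ 2 = w := by rw [ha0]; exact Real.sq_sqrt hw0
  have hr : r ^ 2 = 2 := by rw [hr0]; exact Real.sq_sqrt (by norm_num)
  have hw : w = 1 + r := by rw [hr0]; rfl
  refine ⟨WithLp.toLp 2 ![a * (r + w) / 2, -1 / 2],
    Real.sqrt (a ^ 2 * (r + w) ^ 2 / 4 + 1 / 4), ?_⟩
  rintro x ⟨s, rfl⟩
  have key : dist (pt s) (WithLp.toLp 2 ![a * (r + w) / 2, -1 / 2]) ^ 2
      = a ^ 2 * (r + w) ^ 2 / 4 + 1 / 4 := by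
    rw [EuclideanSpace.dist_eq, Real.sq_sqrt (Finset.sum_nonneg fun _ _ => by positivity)]
    simp only [Fin.sum_univ_two, Real.dist_eq, sq_abs, pt, cI, cII, ← ha0, ← hr0]
    fin_cases s
    · simp
      rw [hw] at ha ⊢
      linear_combination (-r * (1 + r)) * ha + (-(1 + r)) * hr
    · simp
      rw [hw] at ha ⊢
      linear_combination (-r * (1 + r)) * ha + (-(1 + r)) * hr
    · simp
      ring
    · simp
      ring
  rw [← key, Real.sqrt_sq dist_nonneg]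

end Vale.Agent.Lib.P058.Quad
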